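import Vale.Agent.Lib.P362.Hybrid

open Vale.Agent.Lib.P362

/-- For a total Boolean function `f`, a bounded-error quantum query algorithm with `T` queries
and a cover of the cube by `f`-monochromatic subcubes give a deterministic decision tree
of depth at most `288 T^2 ln |cover| + 1`. -/
theorem Vale.Agent.Results.P362.A_cover.result {n m T : ℕ} (f : (Fin n → Bool) → Bool)
    (A : QAlg n m) (hA : A.Computes T f)
    (𝒞 : Finset (Subcube n)) (hmono : ∀ c ∈ 𝒞, Mono f c) (hcov : ∀ x, ∃ c ∈ 𝒞, InCube c x) :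
    ∃ t : DTree n, (∀ x, t.eval x = f x) ∧
      (t.depth : ℝ) ≤ 288 * (T : ℝ) ^ 2 * Real.log (𝒞.card : ℝ) + 1 := by
  obtain ⟨t, ht, hd⟩ := tree_of_heavy f (144 * (T : ℝ) ^ 2) (by positivity)
    (heavy_of_computes A T f hA) 𝒞 hmono hcov
  refine ⟨t, ht, ?_⟩
  calc (t.depth : ℝ) ≤ 2 * (144 * (T : ℝ) ^ 2) * Real.log (𝒞.card : ℝ) + 1 := hd
    _ = 288 * (T : ℝ) ^ 2 * Real.log (𝒞.card : ℝ) + 1 := by ring
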